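import Vale.Agent.P345.H880.Defs

/-! # P345: numbers of solutions, lower semicomputable functions, `Π₂` sets -/

namespace Vale.Agent.P345

/-- The number of solutions `w ∈ ℕᵐ` of the equation `P(a, w) = 0`, a value in
`ℕ ∪ {∞}`. -/
noncomputable def numSol {n m : ℕ} (P : MvPolynomial (Fin n ⊕ Fin m) ℤ) (a : Fin n → ℕ) : ℕ∞ :=
  {w : Fin m → ℕ | IsWit P a w}.encard

/-- A function `N : ℕⁿ → ℕ ∪ {∞}` is lower semicomputable if `{(i, a) : i < N(a)}` is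
recursively enumerable. -/
def LowerSemicomputable {n : ℕ} (N : (Fin n → ℕ) → ℕ∞) : Prop :=
  REPred (fun p : ℕ × (Fin n → ℕ) => (p.1 : ℕ∞) < N p.2)

/-- `S ⊆ ℕⁿ` is a `Π₂` set: `a ∈ S ↔ ∀ x, ∃ y, R(x, y, a)` with a decidable relation `R`. -/
def IsPi2 {n : ℕ} (S : Set (Fin n → ℕ)) : Prop :=
  ∃ R : ℕ → ℕ → (Fin n → ℕ) → Prop,
    ComputablePred (fun p : ℕ × ℕ × (Fin n → ℕ) => R p.1 p.2.1 p.2.2) ∧
    ∀ a, a ∈ S ↔ ∀ x, ∃ y, R x y a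

end Vale.Agent.P345
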