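import Vale.Agent.P345.H880.CountMain

/-! # P345: solution counts, the final form -/

namespace Vale.Agent.P345

namespace H880

open MvPolynomial

theorem re_comp {α β : Type*} [Primcodable α] [Primcodable β] {p : β → Prop} (hp : REPred p)
    {f : α → β} (hf : Computable f) : REPred (fun a => p (f a)) :=
  Partrec.comp hp hf

theorem comp_aux {n : ℕ} (e : ℕ) : Computable (fun p : ℕ × (Fin n → ℕ) =>
    ((p.1, Fin.cons e p.2) : ℕ × (Fin (n + 1) → ℕ))) :=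
  Computable.fst.pair ((computable_cons e).comp Computable.snd)

theorem lsc_comp {n : ℕ} {N : (Fin (n + 1) → ℕ) → ℕ∞} (h : LowerSemicomputable N) (e : ℕ) :
    LowerSemicomputable (fun a : Fin n → ℕ => N (Fin.cons e a)) :=
  re_comp h (comp_aux e)

theorem lsc_section {n m : ℕ} (U : MvPolynomial (Fin (n + 1) ⊕ Fin m) ℤ) (e : ℕ) :
    LowerSemicomputable (fun a : Fin n → ℕ => numSol U (Fin.cons e a)) :=
  lsc_comp (lsc_numSol U) e

/-- **The universal single-fold equation and the numbers of solutions.** -/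
theorem solutionCounts : ∃ m : ℕ,
    ((∀ n : ℕ, ∃ U : MvPolynomial (Fin (n + 1) ⊕ Fin m) ℤ, SingleFoldPoly U ∧
      ∀ S : Set (Fin n → ℕ), REPred (fun a => a ∈ S) → ∃ e : ℕ, ∀ a : Fin n → ℕ,
        a ∈ S ↔ ∃ w : Fin m → ℕ, IsWit U (Fin.cons e a) w) ∧
    (∀ n : ℕ, ∃ D : ℕ, ∀ S : Set (Fin n → ℕ), REPred (fun a => a ∈ S) →
      ∃ P : MvPolynomial (Fin n ⊕ Fin m) ℤ, P.totalDegree ≤ D ∧ SingleFoldPoly P ∧
        ∀ a : Fin n → ℕ, a ∈ S ↔ ∃ w : Fin m → ℕ, IsWit P a w) ∧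
    ∃ P : MvPolynomial (Fin 1 ⊕ Fin m) ℤ, SingleFoldPoly P ∧
      ¬ ComputablePred (fun x : ℕ => ∃ w : Fin m → ℕ, IsWit P ![x] w)) ∧
    (∀ n : ℕ, ∃ U : MvPolynomial (Fin (n + 1) ⊕ Fin (m + 1)) ℤ,
      ∀ N : (Fin n → ℕ) → ℕ∞, LowerSemicomputable N ↔
        ∃ e : ℕ, ∀ a : Fin n → ℕ, numSol U (Fin.cons e a) = N a) ∧
    (∀ n : ℕ, ∃ D : ℕ, ∀ N : (Fin n → ℕ) → ℕ∞, LowerSemicomputable N ↔
      ∃ P : MvPolynomial (Fin n ⊕ Fin (m + 1)) ℤ, P.totalDegree ≤ D ∧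
        ∀ a : Fin n → ℕ, numSol P a = N a) ∧
    (∀ (n k : ℕ) (P : MvPolynomial (Fin n ⊕ Fin k) ℤ), LowerSemicomputable (numSol P)) ∧
    (∀ n : ℕ, ∃ D : ℕ, ∀ S : Set (Fin n → ℕ), REPred (fun a => a ∈ S) →
      ∀ k l : ℕ∞, k < l → ∃ P : MvPolynomial (Fin n ⊕ Fin (m + 1)) ℤ, P.totalDegree ≤ D ∧
        ∀ a : Fin n → ℕ, (a ∈ S → numSol P a = l) ∧ (a ∉ S → numSol P a = k)) ∧
    (∀ k l : ℕ∞, k < l → ∃ P : MvPolynomial (Fin 1 ⊕ Fin (m + 1)) ℤ,
      (∀ x : ℕ, numSol P ![x] = k ∨ numSol P ![x] = l) ∧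
      ¬ ComputablePred (fun x : ℕ => numSol P ![x] = l)) ∧
    (∀ n : ℕ, ∃ D : ℕ, ∀ S : Set (Fin n → ℕ), IsPi2 S ↔
      ∃ P : MvPolynomial (Fin n ⊕ Fin (m + 1)) ℤ, P.totalDegree ≤ D ∧
        ∀ a : Fin n → ℕ, a ∈ S ↔ {w : Fin (m + 1) → ℕ | IsWit P a w}.Infinite) ∧
    ∃ P : MvPolynomial (Fin 1 ⊕ Fin (m + 1)) ℤ, SingleFoldPoly P ∧
      ∀ f : ℕ → ℕ, Computable f →
        {x : ℕ | ∃ w : Fin (m + 1) → ℕ, IsWit P ![x] w ∧ ∃ j, f x < w j}.Infinite := by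
  obtain ⟨m, hold⟩ := universal
  have hU := hold.1
  have h7 : ∀ n : ℕ, ∃ D : ℕ, ∀ S : Set (Fin n → ℕ), REPred (fun a => a ∈ S) →
      ∀ k l : ℕ∞, k < l → ∃ P : MvPolynomial (Fin n ⊕ Fin (m + 1)) ℤ, P.totalDegree ≤ D ∧
        ∀ a : Fin n → ℕ, (a ∈ S → numSol P a = l) ∧ (a ∉ S → numSol P a = k) := by
    intro n
    obtain ⟨D, hD⟩ := counts_degree hU n
    refine ⟨D, fun S hS k l hkl => ?_⟩
    obtain ⟨N, hN, hN2⟩ := lsc_ite hS hkl
    obtain ⟨P, hP1, hP2⟩ := hD N hN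
    refine ⟨P, hP1, fun a => ?_⟩
    rw [hP2]
    exact hN2 a
  refine ⟨m, hold, ?_, ?_, fun n k P => lsc_numSol P, h7, ?_, ?_, noneffective hU⟩
  · intro n
    obtain ⟨U, hU1⟩ := counts hU n
    refine ⟨U, fun N => ⟨hU1 N, ?_⟩⟩
    rintro ⟨e, he⟩
    have h3 : (fun a : Fin n → ℕ => numSol U (Fin.cons e a)) = N := funext he
    rw [← h3]
    exact lsc_section U e
  · intro n
    obtain ⟨D, hD⟩ := counts_degree hU n
    refine ⟨D, fun N => ⟨hD N, ?_⟩⟩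
    rintro ⟨P, _, hP⟩
    have : numSol P = N := funext hP
    rw [← this]
    exact lsc_numSol P
  · intro k l hkl
    let K : Set (Fin 1 → ℕ) :=
      {a | (Nat.Partrec.Code.eval (Denumerable.ofNat Nat.Partrec.Code (a 0)) 0).Dom}
    have hK : REPred (fun a => a ∈ K) := by
      have h0 : Computable (fun v : Fin 1 → ℕ => v 0) :=
        (Primrec.fin_app.comp .id (Primrec.const 0)).to_comp
      exact (Nat.Partrec.Code.eval_part.comp ((Computable.ofNat Nat.Partrec.Code).comp h0)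
        (Computable.const 0)).dom_re
    obtain ⟨D, hD⟩ := h7 1
    obtain ⟨Q, _, hQ⟩ := hD K hK k l hkl
    have hmem : ∀ x : ℕ, (![x] : Fin 1 → ℕ) ∈ K ↔ numSol Q ![x] = l := by
      intro x
      constructor
      · exact (hQ ![x]).1
      · intro h
        by_contra h2
        have := (hQ ![x]).2 h2
        rw [h] at this
        exact absurd hkl (by rw [this]; exact lt_irrefl _)
    refine ⟨Q, fun x => ?_, fun hc => ?_⟩
    · by_cases hx : (![x] : Fin 1 → ℕ) ∈ K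
      · exact Or.inr ((hQ ![x]).1 hx)
      · exact Or.inl ((hQ ![x]).2 hx)
    · have h3 : ComputablePred (fun c : Nat.Partrec.Code =>
          numSol Q ![Encodable.encode c] = l) := by
        obtain ⟨f, hf, hf2⟩ := ComputablePred.computable_iff.1 hc
        rw [ComputablePred.computable_iff]
        refine ⟨fun c => f (Encodable.encode c), hf.comp Computable.encode, ?_⟩
        funext c
        exact congrFun hf2 (Encodable.encode c)
      apply ComputablePred.halting_problem 0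
      refine h3.of_eq fun c => ?_
      rw [← hmem]
      show (Nat.Partrec.Code.eval (Denumerable.ofNat Nat.Partrec.Code
        (Encodable.encode c)) 0).Dom ↔ _
      rw [Denumerable.ofNat_encode]
  · intro n
    obtain ⟨D, hD⟩ := counts_degree hU n
    refine ⟨D, fun S => ⟨fun hS => ?_, ?_⟩⟩
    · obtain ⟨N, hN, hN2⟩ := lsc_pi2 hS
      obtain ⟨P, hP1, hP2⟩ := hD N hN
      refine ⟨P, hP1, fun a => ?_⟩
      rw [hN2, ← hP2]
      unfold numSol
      exact Set.encard_eq_top_iff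
    · rintro ⟨P, _, hP⟩
      have : S = {a : Fin n → ℕ | {w : Fin (m + 1) → ℕ | IsWit P a w}.Infinite} := Set.ext hP
      rw [this]
      exact isPi2_infinite P

end H880

end Vale.Agent.P345
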