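import Vale.Agent.P345.Bdl.B3

/-! # P345: a universal single-fold Diophantine equation -/

namespace Vale.Agent.P345.H880

open Nat.Partrec

/-- injective polynomial pairing -/
def pc (x y : ℕ) : ℕ := (x + y) ^ 2 + x

theorem pc_inj {x y x' y' : ℕ} (h : pc x y = pc x' y') : x = x' ∧ y = y' := by
  unfold pc at h
  have h1 : x + y = x' + y' := by
    rcases lt_trichotomy (x + y) (x' + y') with h2 | h2 | h2
    · nlinarith
    · exact h2
    · nlinarith
  rw [h1] at h
  omega

/-- injective polynomial coding of tuples -/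
def tc : (n : ℕ) → (Fin n → ℕ) → ℕ
  | 0, _ => 0
  | n + 1, v => pc (v 0) (tc n (fun i => v i.succ))

theorem tc_inj : ∀ n : ℕ, Function.Injective (tc n)
  | 0 => fun _ _ _ => funext fun i => i.elim0
  | n + 1 => by
    intro v w h
    obtain ⟨h1, h2⟩ := pc_inj h
    have h3 := tc_inj n h2
    funext i
    refine Fin.cases h1 (fun j => ?_) i
    exact congrFun h3 j

theorem tc_primrec : ∀ n : ℕ, Primrec (tc n)
  | 0 => Primrec.const 0
  | n + 1 => by
    have h0 : Primrec (fun v : Fin (n + 1) → ℕ => v 0) :=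
      Primrec.fin_app.comp .id (Primrec.const 0)
    have h1 : Primrec (fun (v : Fin (n + 1) → ℕ) (i : Fin n) => v i.succ) :=
      Primrec.fin_curry.2 (Primrec.fin_app.comp Primrec.fst (Primrec.fin_succ.comp Primrec.snd))
    have h2 : Primrec (fun v : Fin (n + 1) → ℕ => tc n (fun i => v i.succ)) :=
      (tc_primrec n).comp h1
    have h3 : Primrec (fun v : Fin (n + 1) → ℕ => v 0 + tc n (fun i => v i.succ)) :=
      Primrec.nat_add.comp h0 h2
    have h4 : Primrec (fun v : Fin (n + 1) → ℕ =>
        (v 0 + tc n (fun i => v i.succ)) * (v 0 + tc n (fun i => v i.succ)) + v 0) :=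
      Primrec.nat_add.comp (Primrec.nat_mul.comp h3 h3) h0
    refine h4.of_eq fun v => ?_
    simp only [tc, pc, sq]

/-- The universal recursively enumerable set of pairs (index, input). -/
def univ2 : Set (Fin 2 → ℕ) := {v | (Code.eval (Denumerable.ofNat Code (v 0)) (v 1)).Dom}

theorem univ2_re : REPred (fun v => v ∈ univ2) := by
  have h0 : Computable (fun v : Fin 2 → ℕ => v 0) :=
    (Primrec.fin_app.comp .id (Primrec.const 0)).to_comp
  have h1 : Computable (fun v : Fin 2 → ℕ => v 1) :=
    (Primrec.fin_app.comp .id (Primrec.const 1)).to_comp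
  exact (Code.eval_part.comp ((Computable.ofNat Code).comp h0) h1).dom_re

/-- every r.e. set of tuples is a section of the universal set -/
theorem exists_index (n : ℕ) (S : Set (Fin n → ℕ)) (hS : REPred (fun a => a ∈ S)) :
    ∃ e : ℕ, ∀ a : Fin n → ℕ, a ∈ S ↔ (![e, tc n a] : Fin 2 → ℕ) ∈ univ2 := by
  -- decode
  let g : ℕ → ℕ → Option (Fin n → ℕ) := fun x k =>
    (@Encodable.decode (Fin n → ℕ) Primcodable.toEncodable k).bind
      (fun a => if tc n a = x then some a else none)
  have hg : Computable₂ g := by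
    have hin : Primrec₂ (fun (p : ℕ × ℕ) (a : Fin n → ℕ) => if tc n a = p.1 then some a else none) := by
      refine Primrec.ite ?_ (Primrec.option_some.comp Primrec.snd) (Primrec.const none)
      exact Primrec.eq.comp ((tc_primrec n).comp Primrec.snd) (Primrec.fst.comp Primrec.fst)
    have : Primrec (fun p : ℕ × ℕ => g p.1 p.2) :=
      Primrec.option_bind (Primrec.decode.comp Primrec.snd) hin
    exact this.to_comp
  have hG : Partrec (fun x => Nat.rfindOpt (g x)) := Partrec.rfindOpt hg
  have hF : Partrec (fun x : ℕ => (Nat.rfindOpt (g x)).bind fun a =>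
      Part.assert (a ∈ S) fun _ => Part.some (0 : ℕ)) := by
    have hS' : Partrec (fun a : Fin n → ℕ => Part.assert (a ∈ S) fun _ => Part.some (0 : ℕ)) := by
      have hc : Computable₂ (fun (_ : Fin n → ℕ) (_ : Unit) => (0 : ℕ)) :=
        (Computable.const 0 : Computable (fun _ : (Fin n → ℕ) × Unit => (0 : ℕ)))
      have := Partrec.map hS hc
      refine this.of_eq fun a => ?_
      ext y
      simp [Part.mem_map_iff, Part.mem_assert_iff]
      exact fun _ => eq_comm
    exact hG.bind (hS'.comp Computable.snd)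
  obtain ⟨c, hc⟩ := Code.exists_code.1 (Partrec.nat_iff.1 hF)
  refine ⟨Encodable.encode c, fun a => ?_⟩
  have e1 : ((![Encodable.encode c, tc n a] : Fin 2 → ℕ) ∈ univ2) ↔ (Code.eval c (tc n a)).Dom := by
    show (Code.eval (Denumerable.ofNat Code (Encodable.encode c)) (tc n a)).Dom ↔ _
    rw [Denumerable.ofNat_encode]
  rw [e1, hc]
  have hmem : a ∈ Nat.rfindOpt (g (tc n a)) := by
    have hd : (Nat.rfindOpt (g (tc n a))).Dom := by
      rw [Nat.rfindOpt_dom]
      refine ⟨@Encodable.encode (Fin n → ℕ) Primcodable.toEncodable a, a, ?_⟩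
      simp [g]
    obtain ⟨k, hk⟩ := Nat.rfindOpt_spec ⟨hd, rfl⟩
    have : (Nat.rfindOpt (g (tc n a))).get hd = a := by
      set b := (Nat.rfindOpt (g (tc n a))).get hd
      simp only [g, Option.mem_def, Option.bind_eq_some_iff] at hk
      obtain ⟨d, _, hd2⟩ := hk
      split_ifs at hd2 with h
      · have h3 : d = b := by simpa using hd2
        exact tc_inj n (by rw [← h3]; exact h)
    exact ⟨hd, this⟩
  show a ∈ S ↔ ((Nat.rfindOpt (g (tc n a))).bind fun a =>
      Part.assert (a ∈ S) fun _ => Part.some (0 : ℕ)).Dom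
  rw [Part.eq_some_iff.2 hmem]
  simp [Part.assert]

end Vale.Agent.P345.H880
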