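import Vale.Agent.P345.H880.Defs
import Vale.Agent.P345.H880.Universal

/-! # P345: the universal single-fold polynomial -/

namespace Vale.Agent.P345

namespace H880

open MvPolynomial

/-- the polynomial of the tuple code -/
noncomputable def tcP : (n : ℕ) → MvPolynomial (Fin n) ℤ
  | 0 => 0
  | n + 1 => (X 0 + rename Fin.succ (tcP n)) ^ 2 + X 0

theorem eval_tcP : ∀ (n : ℕ) (a : Fin n → ℕ),
    eval (fun i => (a i : ℤ)) (tcP n) = (tc n a : ℤ)
  | 0, _ => by simp [tcP, tc]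
  | n + 1, a => by
    have ih := eval_tcP n (fun i => a i.succ)
    have e : eval (fun i => (a i : ℤ)) (rename Fin.succ (tcP n)) =
        (tc n (fun i => a i.succ) : ℤ) := by
      rw [eval_rename, ← ih]; rfl
    simp only [tcP, tc, pc, map_add, map_pow, eval_X, e]
    push_cast
    ring

/-- the substitution -/
noncomputable def sub2 (n m : ℕ) : Fin 2 ⊕ Fin m → MvPolynomial (Fin (n + 1) ⊕ Fin m) ℤ :=
  Sum.elim ![X (Sum.inl 0), rename (fun i => Sum.inl (Fin.succ i)) (tcP n)]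
    (fun j => X (Sum.inr j))

theorem eval_sub2 {n m : ℕ} (P : MvPolynomial (Fin 2 ⊕ Fin m) ℤ) (v : Fin (n + 1) → ℕ)
    (w : Fin m → ℕ) :
    IsWit (bind₁ (sub2 n m) P) v w ↔ IsWit P ![v 0, tc n (fun i => v i.succ)] w := by
  unfold IsWit
  have h : eval (Sum.elim (fun i => (v i : ℤ)) (fun j => (w j : ℤ))) (bind₁ (sub2 n m) P) =
      eval (Sum.elim (fun i => ((![v 0, tc n (fun i => v i.succ)] : Fin 2 → ℕ) i : ℤ))
        (fun j => (w j : ℤ))) P := by
    show eval₂Hom _ _ _ = _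
    rw [eval₂Hom_bind₁]
    show eval₂Hom _ _ _ = eval₂Hom _ _ _
    congr 2
    funext i
    rcases i with i | j
    · fin_cases i
      · simp [sub2]
      · show eval _ (rename _ (tcP n)) = _
        rw [eval_rename]
        exact eval_tcP n (fun i => v i.succ)
    · simp [sub2]
  rw [h]

/-- specialisation of the first parameter -/
noncomputable def spec (n m : ℕ) (e : ℕ) : Fin (n + 1) ⊕ Fin m → MvPolynomial (Fin n ⊕ Fin m) ℤ :=
  Sum.elim (Fin.cons (C (e : ℤ)) (fun i => X (Sum.inl i))) (fun j => X (Sum.inr j))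

theorem eval_spec {n m : ℕ} (P : MvPolynomial (Fin (n + 1) ⊕ Fin m) ℤ) (e : ℕ) (a : Fin n → ℕ)
    (w : Fin m → ℕ) :
    IsWit (bind₁ (spec n m e) P) a w ↔ IsWit P (Fin.cons e a) w := by
  unfold IsWit
  have h : eval (Sum.elim (fun i => (a i : ℤ)) (fun j => (w j : ℤ))) (bind₁ (spec n m e) P) =
      eval (Sum.elim (fun i => ((Fin.cons e a : Fin (n + 1) → ℕ) i : ℤ))
        (fun j => (w j : ℤ))) P := by
    show eval₂Hom _ _ _ = _
    rw [eval₂Hom_bind₁]
    show eval₂Hom _ _ _ = eval₂Hom _ _ _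
    congr 2
    funext i
    rcases i with i | j
    · refine Fin.cases ?_ (fun k => ?_) i
      · simp [spec]
      · simp [spec]
    · simp [spec]
  rw [h]

theorem totalDegree_bind {σ τ : Type*} (f : σ → MvPolynomial τ ℤ) (P : MvPolynomial σ ℤ)
    (hf : ∀ i, (f i).totalDegree ≤ 1) : (bind₁ f P).totalDegree ≤ P.totalDegree := by
  rw [bind₁, aeval_def, eval₂_eq]
  refine totalDegree_finsetSum_le fun d hd => ?_
  refine (totalDegree_mul _ _).trans ?_
  have h1 : (algebraMap ℤ (MvPolynomial τ ℤ) (coeff d P)).totalDegree = 0 := totalDegree_C _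
  rw [h1, zero_add]
  refine (totalDegree_finsetProd _ _).trans ?_
  refine le_trans (Finset.sum_le_sum (g := fun i => d i) fun i _ => ?_) (le_totalDegree hd)
  refine (totalDegree_pow _ _).trans ?_
  have := hf i
  nlinarith

/-- **Universal single-fold Diophantine equation.** -/
theorem universal : ∃ m : ℕ,
    (∀ n : ℕ, ∃ U : MvPolynomial (Fin (n + 1) ⊕ Fin m) ℤ, SingleFoldPoly U ∧
      ∀ S : Set (Fin n → ℕ), REPred (fun a => a ∈ S) → ∃ e : ℕ, ∀ a : Fin n → ℕ,
        a ∈ S ↔ ∃ w : Fin m → ℕ, IsWit U (Fin.cons e a) w) ∧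
    (∀ n : ℕ, ∃ D : ℕ, ∀ S : Set (Fin n → ℕ), REPred (fun a => a ∈ S) →
      ∃ P : MvPolynomial (Fin n ⊕ Fin m) ℤ, P.totalDegree ≤ D ∧ SingleFoldPoly P ∧
        ∀ a : Fin n → ℕ, a ∈ S ↔ ∃ w : Fin m → ℕ, IsWit P a w) ∧
    ∃ P : MvPolynomial (Fin 1 ⊕ Fin m) ℤ, SingleFoldPoly P ∧
      ¬ ComputablePred (fun x : ℕ => ∃ w : Fin m → ℕ, IsWit P ![x] w) := by
  obtain ⟨m, P, h1, h2⟩ := (Vale.Agent.P345.sf_of_rePred 2 univ2 univ2_re).exists_mvPolynomial
  have h1' : ∀ a : Fin 2 → ℕ, a ∈ univ2 ↔ ∃ w : Fin m → ℕ, IsWit P a w := h1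
  have h2' : SingleFoldPoly P := h2
  have hU : ∀ n : ℕ, ∃ U : MvPolynomial (Fin (n + 1) ⊕ Fin m) ℤ, SingleFoldPoly U ∧
      ∀ S : Set (Fin n → ℕ), REPred (fun a => a ∈ S) → ∃ e : ℕ, ∀ a : Fin n → ℕ,
        a ∈ S ↔ ∃ w : Fin m → ℕ, IsWit U (Fin.cons e a) w := by
    intro n
    refine ⟨bind₁ (sub2 n m) P, ?_, ?_⟩
    · intro v w hw w' hw'
      exact h2' _ ((eval_sub2 P v w).1 hw) ((eval_sub2 P v w').1 hw')
    · intro S hS
      obtain ⟨e, he⟩ := exists_index n S hS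
      refine ⟨e, fun a => ?_⟩
      rw [he, h1']
      refine exists_congr fun w => ?_
      rw [eval_sub2]
      simp
  have hP : ∀ n : ℕ, ∃ D : ℕ, ∀ S : Set (Fin n → ℕ), REPred (fun a => a ∈ S) →
      ∃ P : MvPolynomial (Fin n ⊕ Fin m) ℤ, P.totalDegree ≤ D ∧ SingleFoldPoly P ∧
        ∀ a : Fin n → ℕ, a ∈ S ↔ ∃ w : Fin m → ℕ, IsWit P a w := by
    intro n
    obtain ⟨U, hU1, hU2⟩ := hU n
    refine ⟨U.totalDegree, fun S hS => ?_⟩
    obtain ⟨e, he⟩ := hU2 S hS
    refine ⟨bind₁ (spec n m e) U, ?_, ?_, ?_⟩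
    · apply totalDegree_bind
      rintro (i | j)
      · refine Fin.cases ?_ (fun k => ?_) i
        · show (C (e : ℤ) : MvPolynomial (Fin n ⊕ Fin m) ℤ).totalDegree ≤ 1
          rw [totalDegree_C]; exact zero_le_one
        · simp [spec, totalDegree_X]
      · simp [spec, totalDegree_X]
    · intro a w hw w' hw'
      exact hU1 _ ((eval_spec U e a w).1 hw) ((eval_spec U e a w').1 hw')
    · intro a
      rw [he]
      exact exists_congr fun w => (eval_spec U e a w).symm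
  refine ⟨m, hU, hP, ?_⟩
  -- the halting problem
  let K : Set (Fin 1 → ℕ) :=
    {a | (Nat.Partrec.Code.eval (Denumerable.ofNat Nat.Partrec.Code (a 0)) 0).Dom}
  have hK : REPred (fun a => a ∈ K) := by
    have h0 : Computable (fun v : Fin 1 → ℕ => v 0) :=
      (Primrec.fin_app.comp .id (Primrec.const 0)).to_comp
    exact (Nat.Partrec.Code.eval_part.comp ((Computable.ofNat Nat.Partrec.Code).comp h0)
      (Computable.const 0)).dom_re
  obtain ⟨D, hD⟩ := hP 1
  obtain ⟨Q, _, hQ1, hQ2⟩ := hD K hK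
  refine ⟨Q, hQ1, fun hc => ?_⟩
  have h3 : ComputablePred (fun c : Nat.Partrec.Code =>
      ∃ w : Fin m → ℕ, IsWit Q ![Encodable.encode c] w) := by
    obtain ⟨f, hf, hf2⟩ := ComputablePred.computable_iff.1 hc
    rw [ComputablePred.computable_iff]
    refine ⟨fun c => f (Encodable.encode c), hf.comp Computable.encode, ?_⟩
    funext c
    exact congrFun hf2 (Encodable.encode c)
  apply ComputablePred.halting_problem 0
  refine h3.of_eq fun c => ?_
  rw [← hQ2]
  show (Nat.Partrec.Code.eval (Denumerable.ofNat Nat.Partrec.Code (Encodable.encode c)) 0).Dom ↔ _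
  rw [Denumerable.ofNat_encode]

end H880

end Vale.Agent.P345
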