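import Vale.Agent.P345.H880.Counts
import Vale.Agent.P345.H880.Poly

/-! # P345: every lower semicomputable function is a solution count -/

namespace Vale.Agent.P345

namespace H880

open MvPolynomial

/-- the second parameter becomes the first auxiliary variable -/
def rho (n m : ℕ) : Fin (n + 1 + 1) ⊕ Fin m → Fin (n + 1) ⊕ Fin (m + 1) :=
  Sum.elim (Fin.cons (Sum.inl 0) (Fin.cons (Sum.inr 0) (fun k => Sum.inl k.succ)))
    (fun j => Sum.inr j.succ)

theorem eval_rho {n m : ℕ} (P : MvPolynomial (Fin (n + 1 + 1) ⊕ Fin m) ℤ) (e : ℕ)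
    (a : Fin n → ℕ) (v : Fin (m + 1) → ℕ) :
    IsWit (rename (rho n m) P) (Fin.cons e a) v ↔
      IsWit P (Fin.cons e (Fin.cons (v 0) a)) (fun j => v j.succ) := by
  unfold IsWit
  rw [eval_rename]
  have h : (Sum.elim (fun i => ((Fin.cons e a : Fin (n + 1) → ℕ) i : ℤ)) (fun j => (v j : ℤ))) ∘
      rho n m = Sum.elim
        (fun i => ((Fin.cons e (Fin.cons (v 0) a) : Fin (n + 1 + 1) → ℕ) i : ℤ))
        (fun j => (v j.succ : ℤ)) := by
    funext i
    rcases i with i | j
    · refine Fin.cases ?_ (fun k => ?_) i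
      · simp [rho]
      · refine Fin.cases ?_ (fun l => ?_) k
        · simp [rho]
        · simp [rho]
    · simp [rho]
  rw [h]

theorem cons_tail {n : ℕ} (v : Fin (n + 1) → ℕ) :
    (Fin.cons (v 0) (fun i => v i.succ) : Fin (n + 1) → ℕ) = v := by
  funext i
  refine Fin.cases ?_ (fun k => ?_) i
  · rfl
  · rfl

/-- **Solution counts.** -/
theorem counts {m : ℕ} (hU : ∀ n : ℕ, ∃ U : MvPolynomial (Fin (n + 1) ⊕ Fin m) ℤ,
      SingleFoldPoly U ∧
      ∀ S : Set (Fin n → ℕ), REPred (fun a => a ∈ S) → ∃ e : ℕ, ∀ a : Fin n → ℕ,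
        a ∈ S ↔ ∃ w : Fin m → ℕ, IsWit U (Fin.cons e a) w) (n : ℕ) :
    ∃ U : MvPolynomial (Fin (n + 1) ⊕ Fin (m + 1)) ℤ,
      ∀ N : (Fin n → ℕ) → ℕ∞, LowerSemicomputable N → ∃ e : ℕ, ∀ a : Fin n → ℕ,
        numSol U (Fin.cons e a) = N a := by
  obtain ⟨U, hU1, hU2⟩ := hU (n + 1)
  refine ⟨rename (rho n m) U, fun N hN => ?_⟩
  let T : Set (Fin (n + 1) → ℕ) := {v | (v 0 : ℕ∞) < N (fun i => v i.succ)}
  have hT : REPred (fun v => v ∈ T) := by
    have h0 : Primrec (fun v : Fin (n + 1) → ℕ => v 0) :=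
      Primrec.fin_app.comp .id (Primrec.const 0)
    have h1 : Primrec (fun (v : Fin (n + 1) → ℕ) (i : Fin n) => v i.succ) :=
      Primrec.fin_curry.2 (Primrec.fin_app.comp Primrec.fst (Primrec.fin_succ.comp Primrec.snd))
    have h2 : Computable (fun v : Fin (n + 1) → ℕ =>
        ((v 0, fun i : Fin n => v i.succ) : ℕ × (Fin n → ℕ))) := (Primrec.pair h0 h1).to_comp
    exact Partrec.comp hN h2
  obtain ⟨e, he⟩ := hU2 T hT
  refine ⟨e, fun a => ?_⟩
  have hTe : ∀ i : ℕ, (i : ℕ∞) < N a ↔ ∃ w : Fin m → ℕ, IsWit U (Fin.cons e (Fin.cons i a)) w := by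
    intro i
    have := he (Fin.cons i a)
    rw [← this]
    show (i : ℕ∞) < N a ↔ (((Fin.cons i a : Fin (n + 1) → ℕ) 0 : ℕ) : ℕ∞) <
      N (fun k => (Fin.cons i a : Fin (n + 1) → ℕ) k.succ)
    simp
  unfold numSol
  have hinj : Set.InjOn (fun v : Fin (m + 1) → ℕ => v 0)
      {w | IsWit (rename (rho n m) U) (Fin.cons e a) w} := by
    intro v hv v' hv' h
    have hv1 := (eval_rho U e a v).1 hv
    have hv2 := (eval_rho U e a v').1 hv'
    have h0 : v 0 = v' 0 := h
    rw [← h0] at hv2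
    have h3 := hU1 _ hv1 hv2
    rw [← cons_tail v, ← cons_tail v', h0, h3]
  have himg : (fun v : Fin (m + 1) → ℕ => v 0) ''
      {w | IsWit (rename (rho n m) U) (Fin.cons e a) w} = {i : ℕ | (i : ℕ∞) < N a} := by
    ext i
    constructor
    · rintro ⟨v, hv, rfl⟩
      exact (hTe (v 0)).2 ⟨_, (eval_rho U e a v).1 hv⟩
    · intro hi
      obtain ⟨w, hw⟩ := (hTe i).1 hi
      refine ⟨Fin.cons i w, ?_, rfl⟩
      exact (eval_rho U e a (Fin.cons i w)).2 hw
  rw [← hinj.encard_image, himg, encard_lt]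

theorem computable_cons {n : ℕ} (e : ℕ) :
    Computable (fun a : Fin n → ℕ => (Fin.cons e a : Fin (n + 1) → ℕ)) := by
  have h : Primrec (fun (a : Fin n → ℕ) (i : Fin (n + 1)) =>
      (Fin.cons e a : Fin (n + 1) → ℕ) i) := by
    refine Primrec.fin_curry.2 ?_
    have h1 : Primrec (fun p : (Fin n → ℕ) × Fin (n + 1) => ((e :: List.ofFn p.1) : List ℕ)) :=
      Primrec.list_cons.comp (Primrec.const e) (Primrec.list_ofFn fun i =>
        Primrec.fin_app.comp Primrec.fst (Primrec.const i))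
    have h2 : Primrec (fun p : (Fin n → ℕ) × Fin (n + 1) =>
        ((e :: List.ofFn p.1) : List ℕ).getD p.2 0) :=
      (Primrec.list_getD 0).comp h1 (Primrec.fin_val.comp Primrec.snd)
    refine h2.of_eq fun p => ?_
    obtain ⟨a, i⟩ := p
    refine Fin.cases ?_ (fun k => ?_) i
    · rfl
    · simp
  exact h.to_comp

/-- the bounded degree form -/
theorem counts_degree {m : ℕ} (hU : ∀ n : ℕ, ∃ U : MvPolynomial (Fin (n + 1) ⊕ Fin m) ℤ,
      SingleFoldPoly U ∧
      ∀ S : Set (Fin n → ℕ), REPred (fun a => a ∈ S) → ∃ e : ℕ, ∀ a : Fin n → ℕ,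
        a ∈ S ↔ ∃ w : Fin m → ℕ, IsWit U (Fin.cons e a) w) (n : ℕ) :
    ∃ D : ℕ, ∀ N : (Fin n → ℕ) → ℕ∞, LowerSemicomputable N →
      ∃ P : MvPolynomial (Fin n ⊕ Fin (m + 1)) ℤ, P.totalDegree ≤ D ∧
        ∀ a : Fin n → ℕ, numSol P a = N a := by
  obtain ⟨U, hU1⟩ := counts hU n
  refine ⟨U.totalDegree, fun N hN => ?_⟩
  obtain ⟨e, he⟩ := hU1 N hN
  refine ⟨bind₁ (spec n (m + 1) e) U, ?_, fun a => ?_⟩
  · apply totalDegree_bind
    rintro (i | j)
    · refine Fin.cases ?_ (fun k => ?_) i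
      · show (C (e : ℤ) : MvPolynomial (Fin n ⊕ Fin (m + 1)) ℤ).totalDegree ≤ 1
        rw [totalDegree_C]; exact zero_le_one
      · simp [spec, totalDegree_X]
    · simp [spec, totalDegree_X]
  · rw [← he a]
    unfold numSol
    congr 1
    ext w
    exact eval_spec U e a w

/-- a single-fold equation whose solutions are not bounded by any computable function -/
theorem noneffective {m : ℕ} (hU : ∀ n : ℕ, ∃ U : MvPolynomial (Fin (n + 1) ⊕ Fin m) ℤ,
      SingleFoldPoly U ∧
      ∀ S : Set (Fin n → ℕ), REPred (fun a => a ∈ S) → ∃ e : ℕ, ∀ a : Fin n → ℕ,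
        a ∈ S ↔ ∃ w : Fin m → ℕ, IsWit U (Fin.cons e a) w) :
    ∃ P : MvPolynomial (Fin 1 ⊕ Fin (m + 1)) ℤ, SingleFoldPoly P ∧
      ∀ f : ℕ → ℕ, Computable f →
        {x : ℕ | ∃ w : Fin (m + 1) → ℕ, IsWit P ![x] w ∧ ∃ j, f x < w j}.Infinite := by
  obtain ⟨U, hU1, hU2⟩ := hU 2
  -- `(s, x)`: `s` is the least number of steps after which the code `x` halts on input `0`
  let ev : ℕ → ℕ → Bool := fun s x =>
    (Nat.Partrec.Code.evaln s (Denumerable.ofNat Nat.Partrec.Code x) 0).isSome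
  have hev : Computable₂ ev := by
    have h1 : Primrec (fun p : ℕ × ℕ =>
        (((p.1, Denumerable.ofNat Nat.Partrec.Code p.2), 0) : (ℕ × Nat.Partrec.Code) × ℕ)) :=
      Primrec.pair (Primrec.pair Primrec.fst ((Primrec.ofNat Nat.Partrec.Code).comp Primrec.snd))
        (Primrec.const 0)
    exact (Primrec.option_isSome.comp (Nat.Partrec.Code.primrec_evaln.comp h1)).to_comp
  have hmono : ∀ s t x, s ≤ t → ev s x = true → ev t x = true := by
    intro s t x hst h
    obtain ⟨y, hy⟩ := Option.isSome_iff_exists.1 h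
    exact Option.isSome_iff_exists.2 ⟨y, Nat.Partrec.Code.evaln_mono hst hy⟩
  let T : Set (Fin 2 → ℕ) := {v | ev (v 0) (v 1) = false ∧ ev (v 0 + 1) (v 1) = true}
  have hT : REPred (fun v => v ∈ T) := by
    have h0 : Computable (fun v : Fin 2 → ℕ => v 0) :=
      (Primrec.fin_app.comp .id (Primrec.const 0)).to_comp
    have h1 : Computable (fun v : Fin 2 → ℕ => v 1) :=
      (Primrec.fin_app.comp .id (Primrec.const 1)).to_comp
    have hb : Computable (fun v : Fin 2 → ℕ => !(ev (v 0) (v 1)) && ev (v 0 + 1) (v 1)) :=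
      Primrec.and.to_comp.comp (Primrec.not.to_comp.comp (hev.comp h0 h1))
        (hev.comp (Computable.succ.comp h0) h1)
    refine ComputablePred.to_re (ComputablePred.computable_iff.2 ⟨_, hb, ?_⟩)
    funext v
    show (v ∈ T) = ((!(ev (v 0) (v 1)) && ev (v 0 + 1) (v 1)) = true)
    rw [Bool.and_eq_true, Bool.not_eq_true']
    rfl
  obtain ⟨e, he⟩ := hU2 T hT
  -- uniqueness of `s`
  have huniq : ∀ s t x, ![s, x] ∈ T → ![t, x] ∈ T → s = t := by
    rintro s t x ⟨h1, h2⟩ ⟨h3, h4⟩
    have h1 : ev s x = false := h1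
    have h2 : ev (s + 1) x = true := h2
    have h3 : ev t x = false := h3
    have h4 : ev (t + 1) x = true := h4
    by_contra hne
    rcases lt_or_gt_of_ne hne with h | h
    · have := hmono (s + 1) t x h h2
      rw [h3] at this
      exact Bool.false_ne_true this
    · have := hmono (t + 1) s x h h4
      rw [h1] at this
      exact Bool.false_ne_true this
  let P : MvPolynomial (Fin 1 ⊕ Fin (m + 1)) ℤ :=
    bind₁ (spec 1 (m + 1) e) (rename (rho 1 m) U)
  have hP : ∀ (a : Fin 1 → ℕ) (v : Fin (m + 1) → ℕ),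
      IsWit P a v ↔ IsWit U (Fin.cons e (Fin.cons (v 0) a)) (fun j => v j.succ) := fun a v =>
    (eval_spec _ e a v).trans (eval_rho U e a v)
  have hPT : ∀ (a : Fin 1 → ℕ) (v : Fin (m + 1) → ℕ), IsWit P a v → ![v 0, a 0] ∈ T := by
    intro a v h
    have h1 := (he (Fin.cons (v 0) a)).2 ⟨_, (hP a v).1 h⟩
    have h2 : (Fin.cons (v 0) a : Fin 2 → ℕ) = ![v 0, a 0] := by
      funext i
      fin_cases i
      · rfl
      · rfl
    rwa [h2] at h1
  have hSF : SingleFoldPoly P := by
    intro a v hv v' hv'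
    have h0 : v 0 = v' 0 := huniq _ _ _ (hPT a v hv) (hPT a v' hv')
    have h1 := (hP a v).1 hv
    have h2 := (hP a v').1 hv'
    rw [← h0] at h2
    have h3 := hU1 _ h1 h2
    rw [← cons_tail v, ← cons_tail v', h0, h3]
  refine ⟨P, hSF, ?_⟩
  -- first: for every computable `f` there is one such `x`
  have key : ∀ f : ℕ → ℕ, Computable f →
      ∃ x : ℕ, ∃ w : Fin (m + 1) → ℕ, IsWit P ![x] w ∧ ∃ j, f x < w j := by
    intro f hf
    by_contra hcon
    push Not at hcon
    -- the halting problem would be decidable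
    have hdec : ∀ c : Nat.Partrec.Code, (Nat.Partrec.Code.eval c 0).Dom ↔
        ev (f (Encodable.encode c) + 1) (Encodable.encode c) = true := by
      intro c
      have hof : Denumerable.ofNat Nat.Partrec.Code (Encodable.encode c) = c :=
        Denumerable.ofNat_encode c
      constructor
      · intro hd
        have hex : ∃ s, ev s (Encodable.encode c) = true := by
          obtain ⟨s, hs⟩ := Nat.Partrec.Code.evaln_complete.1 (Part.get_mem hd)
          refine ⟨s, ?_⟩
          show (Nat.Partrec.Code.evaln s (Denumerable.ofNat Nat.Partrec.Code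
            (Encodable.encode c)) 0).isSome = true
          rw [hof]
          exact Option.isSome_iff_exists.2 ⟨_, hs⟩
        classical
        obtain ⟨s0, hs0, hmin⟩ := Nat.findX hex
        have hs0pos : s0 ≠ 0 := by
          rintro rfl
          have : ev 0 (Encodable.encode c) = false := by
            simp [ev, Nat.Partrec.Code.evaln]
          rw [this] at hs0
          exact Bool.false_ne_true hs0
        obtain ⟨s, rfl⟩ := Nat.exists_eq_succ_of_ne_zero hs0pos
        have hsT : ![s, Encodable.encode c] ∈ T := by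
          refine ⟨?_, hs0⟩
          have := hmin s (Nat.lt_succ_self s)
          show ev s (Encodable.encode c) = false
          exact Bool.eq_false_iff.2 this
        obtain ⟨w, hw⟩ := (he ![s, Encodable.encode c]).1 hsT
        have hv : IsWit P ![Encodable.encode c] (Fin.cons s w) := by
          rw [hP]
          exact hw
        have h5 := hcon (Encodable.encode c) (Fin.cons s w) hv 0
        exact hmono (s + 1) _ _ (Nat.succ_le_succ h5) hs0
      · intro h
        obtain ⟨y, hy⟩ := Option.isSome_iff_exists.1 h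
        rw [hof] at hy
        exact (Nat.Partrec.Code.evaln_sound hy).1
    have hc : Computable (fun c : Nat.Partrec.Code =>
        ev (f (Encodable.encode c) + 1) (Encodable.encode c)) :=
      hev.comp (Computable.succ.comp (hf.comp Computable.encode)) Computable.encode
    refine ComputablePred.halting_problem 0 (ComputablePred.computable_iff.2 ⟨_, hc, ?_⟩)
    funext c
    exact propext (hdec c)
  intro f hf
  by_contra hfin
  rw [Set.not_infinite] at hfin
  have hM : ∃ M : ℕ, ∀ x ∈ {x : ℕ | ∃ w : Fin (m + 1) → ℕ, IsWit P ![x] w ∧ ∃ j, f x < w j},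
      ∀ w : Fin (m + 1) → ℕ, IsWit P ![x] w → ∀ j, w j ≤ M := by
    refine Set.Finite.induction_on _ hfin ⟨0, fun x hx => absurd hx (Set.notMem_empty x)⟩ ?_
    rintro x s _ _ ⟨M, hM⟩
    by_cases hx : ∃ w : Fin (m + 1) → ℕ, IsWit P ![x] w
    · obtain ⟨w0, hw0⟩ := hx
      refine ⟨M + ∑ j, w0 j, ?_⟩
      rintro y (rfl | hy) w hw j
      · have : w = w0 := hSF _ hw hw0
        subst this
        exact (Finset.single_le_sum (fun i _ => Nat.zero_le (w i)) (Finset.mem_univ j)).trans
          (Nat.le_add_left _ _)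
      · exact (hM y hy w hw j).trans (Nat.le_add_right _ _)
    · refine ⟨M, ?_⟩
      rintro y (rfl | hy) w hw j
      · exact absurd ⟨w, hw⟩ hx
      · exact hM y hy w hw j
  obtain ⟨M, hM⟩ := hM
  have hf' : Computable (fun x => f x + M) :=
    Primrec.nat_add.to_comp.comp hf (Computable.const M)
  obtain ⟨x, w, hw, j, hj⟩ := key _ hf'
  have hx : x ∈ {x : ℕ | ∃ w : Fin (m + 1) → ℕ, IsWit P ![x] w ∧ ∃ j, f x < w j} :=
    ⟨w, hw, j, lt_of_le_of_lt (Nat.le_add_right _ _) hj⟩
  have := hM x hx w hw j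
  have hj' : f x + M < w j := hj
  omega

end H880

end Vale.Agent.P345
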