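import Vale.Agent.P345.H880.CountDefs

/-! # P345: computability of the number of solutions -/

namespace Vale.Agent.P345

namespace H880

open MvPolynomial

theorem re_exists {α : Type*} [Primcodable α] {p : α → ℕ → Bool}
    (hp : Computable₂ p) : REPred (fun a => ∃ n, p a n = true) := by
  have h : Partrec (fun x ↦ Nat.rfind fun n => Part.some (p x n)) :=
    Partrec.rfind hp.partrec₂
  refine h.dom_re.of_eq fun a => ?_
  refine Iff.trans (Nat.rfind_dom (p := fun n => Part.some (p a n))) ?_
  constructor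
  · rintro ⟨n, hn, _⟩
    refine ⟨n, ?_⟩
    simpa using (Part.mem_some_iff.1 hn).symm
  · rintro ⟨n, hn⟩
    exact ⟨n, Part.mem_some_iff.2 hn.symm, fun _ => trivial⟩

theorem re_forall_lt {α : Type*} [Primcodable α] {T : ℕ × α → Prop} (hT : REPred T) :
    REPred (fun p : ℕ × α => ∀ x < p.1, T (x, p.2)) := by
  have hh : Partrec₂ (fun (p : ℕ × α) (q : ℕ × Unit) =>
      Part.assert (T (q.1, p.2)) fun _ => Part.some ()) := by
    have : Computable (fun z : (ℕ × α) × (ℕ × Unit) => ((z.2.1, z.1.2) : ℕ × α)) :=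
      (Computable.fst.comp Computable.snd).pair (Computable.snd.comp Computable.fst)
    exact Partrec.comp hT this
  have h := Partrec.nat_rec (α := ℕ × α) (σ := Unit) (f := Prod.fst) (g := fun _ => Part.some ())
    Computable.fst (Computable.const ()).partrec hh
  refine h.dom_re.of_eq fun p => ?_
  obtain ⟨k, a⟩ := p
  show (Nat.rec (Part.some ()) (fun y IH => IH.bind fun i =>
    Part.assert (T (y, a)) fun _ => Part.some ()) k : Part Unit).Dom ↔ ∀ x < k, T (x, a)
  induction k with
  | zero => simp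
  | succ k ih =>
    rw [Nat.forall_lt_succ_right, ← ih]
    show (Part.bind (Nat.rec (Part.some ()) (fun y IH => IH.bind fun i =>
      Part.assert (T (y, a)) fun _ => Part.some ()) k : Part Unit) fun i =>
        Part.assert (T (k, a)) fun _ => Part.some ()).Dom ↔ _
    rw [Part.bind_dom]
    simp [Part.assert]

/-- integer polynomials as differences of primitive recursive functions -/
theorem exists_primrec {n m : ℕ} (P : MvPolynomial (Fin n ⊕ Fin m) ℤ) :
    ∃ f g : (Fin n → ℕ) × (Fin m → ℕ) → ℕ, Primrec f ∧ Primrec g ∧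
      ∀ a w, eval (Sum.elim (fun i => (a i : ℤ)) (fun j => (w j : ℤ))) P =
        (f (a, w) : ℤ) - (g (a, w) : ℤ) := by
  induction P using MvPolynomial.induction_on with
  | C z =>
    refine ⟨fun _ => z.toNat, fun _ => (-z).toNat, Primrec.const _, Primrec.const _,
      fun a w => ?_⟩
    rw [eval_C]
    show z = ((z.toNat : ℕ) : ℤ) - (((-z).toNat : ℕ) : ℤ)
    omega
  | add P Q hP hQ =>
    obtain ⟨f, g, hf, hg, h⟩ := hP
    obtain ⟨f', g', hf', hg', h'⟩ := hQ
    refine ⟨fun p => f p + f' p, fun p => g p + g' p, Primrec.nat_add.comp hf hf',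
      Primrec.nat_add.comp hg hg', fun a w => ?_⟩
    rw [map_add, h, h']
    push_cast
    ring
  | mul_X P i hP =>
    obtain ⟨f, g, hf, hg, h⟩ := hP
    have hx : ∃ x : (Fin n → ℕ) × (Fin m → ℕ) → ℕ, Primrec x ∧
        ∀ a w, Sum.elim (fun i => (a i : ℤ)) (fun j => (w j : ℤ)) i = (x (a, w) : ℤ) := by
      rcases i with i | j
      · exact ⟨fun p => p.1 i, Primrec.fin_app.comp Primrec.fst (Primrec.const i),
          fun a w => rfl⟩
      · exact ⟨fun p => p.2 j, Primrec.fin_app.comp Primrec.snd (Primrec.const j),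
          fun a w => rfl⟩
    obtain ⟨x, hx, hx'⟩ := hx
    refine ⟨fun p => f p * x p, fun p => g p * x p, Primrec.nat_mul.comp hf hx,
      Primrec.nat_mul.comp hg hx, fun a w => ?_⟩
    rw [map_mul, h, eval_X, hx']
    push_cast
    ring

/-- the code of a tuple -/
noncomputable abbrev encT {m : ℕ} (w : Fin m → ℕ) : ℕ :=
  @Encodable.encode (Fin m → ℕ) Primcodable.toEncodable w

theorem exists_cnt {n m : ℕ} (P : MvPolynomial (Fin n ⊕ Fin m) ℤ) :
    ∃ c : (Fin n → ℕ) → ℕ → ℕ, Primrec₂ c ∧ ∀ a B,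
      {w : Fin m → ℕ | IsWit P a w ∧ encT w < B}.encard = ((c a B : ℕ) : ℕ∞) := by
  obtain ⟨f, g, hf, hg, h⟩ := exists_primrec P
  let chi : (Fin n → ℕ) → ℕ → ℕ := fun a B =>
    Option.casesOn (@Encodable.decode (Fin m → ℕ) Primcodable.toEncodable B) 0
      (fun w => if f (a, w) = g (a, w) ∧ encT w = B then 1 else 0)
  have hchi : Primrec₂ chi := by
    have hdec : Primrec (fun p : (Fin n → ℕ) × ℕ =>
        @Encodable.decode (Fin m → ℕ) Primcodable.toEncodable p.2) :=
      Primrec.decode.comp Primrec.snd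
    refine Primrec.option_casesOn hdec (Primrec.const 0) ?_
    have hpair : Primrec (fun q : ((Fin n → ℕ) × ℕ) × (Fin m → ℕ) => (q.1.1, q.2)) :=
      Primrec.pair (Primrec.fst.comp Primrec.fst) Primrec.snd
    refine Primrec.ite (PrimrecPred.and ?_ ?_) (Primrec.const 1) (Primrec.const 0)
    · exact Primrec.eq.comp (hf.comp hpair) (hg.comp hpair)
    · exact Primrec.eq.comp (Primrec.encode.comp Primrec.snd) (Primrec.snd.comp Primrec.fst)
  have hchi2 : ∀ (a : Fin n → ℕ) (B : ℕ),
      {w : Fin m → ℕ | IsWit P a w ∧ encT w = B}.encard = (Nat.cast (chi a B) : ℕ∞) := by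
    intro a B
    have hw : ∀ w, IsWit P a w ↔ f (a, w) = g (a, w) := by
      intro w
      unfold IsWit
      rw [h]
      omega
    rcases hd : @Encodable.decode (Fin m → ℕ) Primcodable.toEncodable B with _ | w0
    · have e1 : {w : Fin m → ℕ | IsWit P a w ∧ encT w = B} = ∅ := by
        ext w
        simp only [Set.mem_ofPred_eq, Set.mem_empty_iff_false, iff_false, not_and]
        intro _ h2
        rw [← h2, @Encodable.encodek _ Primcodable.toEncodable w] at hd
        cases hd
      have e2 : chi a B = 0 := by simp only [chi, hd]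
      rw [e1, e2]
      simp
    · by_cases h3 : f (a, w0) = g (a, w0) ∧ encT w0 = B
      · have e1 : {w : Fin m → ℕ | IsWit P a w ∧ encT w = B} = {w0} := by
          ext w
          simp only [Set.mem_ofPred_eq, Set.mem_singleton_iff]
          constructor
          · rintro ⟨_, h2⟩
            rw [← h2, @Encodable.encodek _ Primcodable.toEncodable w] at hd
            exact Option.some.inj hd
          · rintro rfl
            exact ⟨(hw w).2 h3.1, h3.2⟩
        have e2 : chi a B = 1 := by simp only [chi, hd, if_pos h3]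
        rw [e1, e2]
        simp
      · have e1 : {w : Fin m → ℕ | IsWit P a w ∧ encT w = B} = ∅ := by
          ext w
          simp only [Set.mem_ofPred_eq, Set.mem_empty_iff_false, iff_false]
          rintro ⟨h1, h2⟩
          have hd' := hd
          rw [← h2, @Encodable.encodek _ Primcodable.toEncodable w] at hd
          have : w = w0 := Option.some.inj hd
          subst this
          exact h3 ⟨(hw w).1 h1, h2⟩
        have e2 : chi a B = 0 := by simp only [chi, hd, if_neg h3]
        rw [e1, e2]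
        simp
  refine ⟨fun a B => Nat.rec 0 (fun y IH => IH + chi a y) B, ?_, ?_⟩
  · have hstep : Primrec₂ (fun (p : (Fin n → ℕ) × ℕ) (q : ℕ × ℕ) => q.2 + chi p.1 q.1) :=
      Primrec.nat_add.comp (Primrec.snd.comp Primrec.snd)
        (hchi.comp (Primrec.fst.comp Primrec.fst) (Primrec.fst.comp Primrec.snd))
    exact Primrec.nat_rec' Primrec.snd (Primrec.const 0) hstep
  · intro a B
    induction B with
    | zero => simp
    | succ B ih =>
      have e1 : {w : Fin m → ℕ | IsWit P a w ∧ encT w < B + 1} =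
          {w : Fin m → ℕ | IsWit P a w ∧ encT w < B} ∪
          {w : Fin m → ℕ | IsWit P a w ∧ encT w = B} := by
        ext w
        simp only [Set.mem_ofPred_eq, Set.mem_union]
        constructor
        · rintro ⟨h1, h2⟩
          rcases Nat.lt_succ_iff_lt_or_eq.1 h2 with h3 | h3
          · exact Or.inl ⟨h1, h3⟩
          · exact Or.inr ⟨h1, h3⟩
        · rintro (⟨h1, h2⟩ | ⟨h1, h2⟩)
          · exact ⟨h1, by omega⟩
          · exact ⟨h1, by omega⟩
      rw [e1, Set.encard_union_eq, ih, hchi2]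
      · push_cast
        rfl
      · rw [Set.disjoint_left]
        rintro w ⟨_, h2⟩ ⟨_, h4⟩
        omega

theorem lt_encard_iff {m : ℕ} (S : Set (Fin m → ℕ)) (i : ℕ) :
    (i : ℕ∞) < S.encard ↔ ∃ B, (i : ℕ∞) < {w | w ∈ S ∧ encT w < B}.encard := by
  constructor
  · intro h
    have h1 : ((i + 1 : ℕ) : ℕ∞) ≤ S.encard := by
      rw [Nat.cast_add, Nat.cast_one]
      exact Order.add_one_le_of_lt h
    obtain ⟨T, hT, hT2⟩ := Set.exists_subset_encard_eq h1
    have hfin : T.Finite := Set.finite_of_encard_eq_coe hT2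
    obtain ⟨B, hB⟩ := (hfin.image encT).bddAbove
    refine ⟨B + 1, ?_⟩
    have h2 : T ⊆ {w | w ∈ S ∧ encT w < B + 1} := fun w hw =>
      ⟨hT hw, Nat.lt_succ_of_le (hB ⟨w, hw, rfl⟩)⟩
    refine lt_of_lt_of_le ?_ (Set.encard_le_encard h2)
    rw [hT2]
    exact_mod_cast Nat.lt_succ_self i
  · rintro ⟨B, hB⟩
    exact lt_of_lt_of_le hB (Set.encard_le_encard fun w hw => hw.1)

/-- the number of solutions is lower semicomputable -/
theorem lsc_numSol {n m : ℕ} (P : MvPolynomial (Fin n ⊕ Fin m) ℤ) :
    LowerSemicomputable (numSol P) := by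
  obtain ⟨c, hc, hc2⟩ := exists_cnt P
  have hp : Computable₂ (fun (p : ℕ × (Fin n → ℕ)) (B : ℕ) => decide (p.1 < c p.2 B)) := by
    have : Primrec (fun q : (ℕ × (Fin n → ℕ)) × ℕ => decide (q.1.1 < c q.1.2 q.2)) :=
      (Primrec.nat_lt.comp (Primrec.fst.comp Primrec.fst)
        (hc.comp (Primrec.snd.comp Primrec.fst) Primrec.snd)).decide
    exact this.to_comp
  refine (re_exists hp).of_eq fun p => ?_
  obtain ⟨i, a⟩ := p
  show (∃ B, decide (i < c a B) = true) ↔ (i : ℕ∞) < numSol P a
  unfold numSol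
  rw [lt_encard_iff]
  refine exists_congr fun B => ?_
  have := hc2 a B
  simp only [Set.mem_ofPred_eq]
  rw [this, decide_eq_true_iff, Nat.cast_lt]

/-- The `Π₂` form of finiteness. -/
theorem isPi2_infinite {n m : ℕ} (P : MvPolynomial (Fin n ⊕ Fin m) ℤ) :
    IsPi2 {a : Fin n → ℕ | {w : Fin m → ℕ | IsWit P a w}.Infinite} := by
  obtain ⟨c, hc, hc2⟩ := exists_cnt P
  refine ⟨fun x y a => x < c a y, ?_, fun a => ?_⟩
  · have : Primrec (fun q : ℕ × ℕ × (Fin n → ℕ) => decide (q.1 < c q.2.2 q.2.1)) :=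
      (Primrec.nat_lt.comp Primrec.fst (hc.comp (Primrec.snd.comp Primrec.snd)
        (Primrec.fst.comp Primrec.snd))).decide
    exact ⟨fun _ => inferInstance, this.to_comp⟩
  · show {w : Fin m → ℕ | IsWit P a w}.Infinite ↔ ∀ x, ∃ y, x < c a y
    have h1 : ∀ x : ℕ, (∃ y, x < c a y) ↔ (x : ℕ∞) < {w : Fin m → ℕ | IsWit P a w}.encard := by
      intro x
      rw [lt_encard_iff]
      refine exists_congr fun B => ?_
      have := hc2 a B
      simp only [Set.mem_ofPred_eq]
      rw [this, Nat.cast_lt]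
    simp only [h1]
    rw [← Set.encard_eq_top_iff]
    constructor
    · intro h x
      rw [h]
      exact ENat.natCast_lt_top x
    · intro h
      by_contra h2
      obtain ⟨k, hk⟩ := ENat.ne_top_iff_exists.1 h2
      have := h k
      rw [← hk] at this
      exact lt_irrefl _ this

theorem encard_lt (c : ℕ∞) : {i : ℕ | (i : ℕ∞) < c}.encard = c := by
  induction c using ENat.recTopCoe with
  | top =>
    have : {i : ℕ | (i : ℕ∞) < ⊤} = Set.univ := by
      ext i
      simp
    rw [this]
    simp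
  | coe k =>
    have : {i : ℕ | (i : ℕ∞) < k} = (Finset.range k : Set ℕ) := by
      ext i
      simp
    rw [this, Set.encard_coe_eq_coe_finsetCard, Finset.card_range]

theorem lt_encard_of_lower {D : Set ℕ} (hD : ∀ i ∈ D, ∀ j ≤ i, j ∈ D) (j : ℕ) :
    (j : ℕ∞) < D.encard ↔ j ∈ D := by
  constructor
  · intro h
    by_contra hj
    have : D ⊆ (Finset.range j : Set ℕ) := by
      intro i hi
      simp only [Finset.coe_range, Set.mem_Iio]
      by_contra h2
      exact hj (hD i hi j (not_lt.1 h2))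
    have h3 := Set.encard_le_encard this
    rw [Set.encard_coe_eq_coe_finsetCard, Finset.card_range] at h3
    exact absurd (lt_of_lt_of_le h h3) (lt_irrefl _)
  · intro h
    have : (Finset.range (j + 1) : Set ℕ) ⊆ D := by
      intro i hi
      simp only [Finset.coe_range, Set.mem_Iio] at hi
      exact hD j h i (by omega)
    have h3 := Set.encard_le_encard this
    rw [Set.encard_coe_eq_coe_finsetCard, Finset.card_range] at h3
    refine lt_of_lt_of_le ?_ h3
    exact_mod_cast Nat.lt_succ_self j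

/-- the indicator with values `k < l` of a recursively enumerable set -/
theorem lsc_ite {n : ℕ} {S : Set (Fin n → ℕ)} (hS : REPred (fun a => a ∈ S)) {k l : ℕ∞}
    (hkl : k < l) : ∃ N : (Fin n → ℕ) → ℕ∞, LowerSemicomputable N ∧
      ∀ a, (a ∈ S → N a = l) ∧ (a ∉ S → N a = k) := by
  classical
  refine ⟨fun a => if a ∈ S then l else k, ?_, fun a => ⟨fun h => if_pos h, fun h => if_neg h⟩⟩
  have hcomp : ∀ c : ℕ∞, ∃ b : ℕ → Bool, Computable b ∧ ∀ i : ℕ, b i = true ↔ (i : ℕ∞) < c := by
    intro c
    induction c using ENat.recTopCoe with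
    | top => exact ⟨fun _ => true, Computable.const _, fun i => by simp⟩
    | coe c =>
      refine ⟨fun i => decide (i < c), ?_, fun i => by simp⟩
      exact (Primrec.nat_lt.comp Primrec.id (Primrec.const c)).decide.to_comp
  obtain ⟨bk, hbk, hbk2⟩ := hcomp k
  obtain ⟨bl, hbl, hbl2⟩ := hcomp l
  have hS' : Partrec (fun p : ℕ × (Fin n → ℕ) => Part.assert (p.2 ∈ S) fun _ => Part.some ()) :=
    Partrec.comp hS Computable.snd
  have h1 : Partrec (fun p : ℕ × (Fin n → ℕ) => cond (bl p.1)
      (Part.assert (p.2 ∈ S) fun _ => Part.some ()) Part.none) :=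
    Partrec.cond (hbl.comp Computable.fst) hS' Partrec.none
  have h2 : Partrec (fun p : ℕ × (Fin n → ℕ) => cond (bk p.1) (Part.some ()) (cond (bl p.1)
      (Part.assert (p.2 ∈ S) fun _ => Part.some ()) Part.none)) :=
    Partrec.cond (hbk.comp Computable.fst) (Computable.const ()).partrec h1
  refine h2.dom_re.of_eq fun p => ?_
  obtain ⟨i, a⟩ := p
  show (cond (bk i) (Part.some ()) (cond (bl i)
      (Part.assert (a ∈ S) fun _ => Part.some ()) Part.none)).Dom ↔
      (i : ℕ∞) < (if a ∈ S then l else k)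
  have hk := hbk2 i
  have hl := hbl2 i
  by_cases h3 : a ∈ S
  · rw [if_pos h3, ← hl]
    cases hb : bk i
    · cases hb2 : bl i <;> simp [Part.assert, h3]
    · have : (i : ℕ∞) < l := lt_trans (hk.1 hb) hkl
      simp [hl.2 this]
  · rw [if_neg h3, ← hk]
    cases hb : bk i
    · cases hb2 : bl i <;> simp [Part.assert, h3]
    · simp

/-- a lower semicomputable function which is infinite exactly on a given `Π₂` set -/
theorem lsc_pi2 {n : ℕ} {S : Set (Fin n → ℕ)} (hS : IsPi2 S) :
    ∃ N : (Fin n → ℕ) → ℕ∞, LowerSemicomputable N ∧ ∀ a, a ∈ S ↔ N a = ⊤ := by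
  obtain ⟨R, hR, hS2⟩ := hS
  obtain ⟨r, hr, hr2⟩ := ComputablePred.computable_iff.1 hR
  have hr3 : ∀ x y a, R x y a ↔ r (x, y, a) = true := fun x y a =>
    iff_of_eq (congrFun hr2 (x, y, a))
  have h1 : REPred (fun p : ℕ × (Fin n → ℕ) => ∃ y, r (p.1, y, p.2) = true) := by
    refine re_exists (p := fun (p : ℕ × (Fin n → ℕ)) y => r (p.1, y, p.2)) ?_
    have : Computable (fun q : (ℕ × (Fin n → ℕ)) × ℕ => ((q.1.1, q.2, q.1.2) : ℕ × ℕ × (Fin n → ℕ))) :=
      (Computable.fst.comp Computable.fst).pair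
        (Computable.snd.pair (Computable.snd.comp Computable.fst))
    exact hr.comp this
  have h2 := re_forall_lt h1
  have h3 : REPred (fun p : ℕ × (Fin n → ℕ) => ∀ x < p.1 + 1, ∃ y, r (x, y, p.2) = true) := by
    have : Computable (fun p : ℕ × (Fin n → ℕ) => ((p.1 + 1, p.2) : ℕ × (Fin n → ℕ))) :=
      (Computable.succ.comp Computable.fst).pair Computable.snd
    exact Partrec.comp h2 this
  refine ⟨fun a => {i : ℕ | ∀ x < i + 1, ∃ y, r (x, y, a) = true}.encard, ?_, fun a => ?_⟩
  · refine h3.of_eq fun p => ?_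
    rw [lt_encard_of_lower]
    · rfl
    · intro i hi j hj x hx
      exact hi x (by omega)
  · rw [hS2, Set.encard_eq_top_iff]
    constructor
    · intro h
      have : {i : ℕ | ∀ x < i + 1, ∃ y, r (x, y, a) = true} = Set.univ := by
        refine Set.eq_univ_of_forall fun i x _ => ?_
        obtain ⟨y, hy⟩ := h x
        exact ⟨y, (hr3 x y a).1 hy⟩
      rw [this]
      exact Set.infinite_univ
    · intro h x
      obtain ⟨i, hi, hxi⟩ := h.exists_gt x
      obtain ⟨y, hy⟩ := hi x (by omega)
      exact ⟨y, (hr3 x y a).2 hy⟩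

end H880

end Vale.Agent.P345
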