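import Mathlib

/-! # P345: solutions of parametric polynomial equations, single-fold polynomials -/

namespace Vale.Agent.P345

/-- `w` solves `P(a, w) = 0`: here `P` is a polynomial with integer coefficients in the `n`
parameter variables (indexed by `Fin n`) and the `m` auxiliary variables (indexed by `Fin m`). -/
def IsWit {n m : ℕ} (P : MvPolynomial (Fin n ⊕ Fin m) ℤ) (a : Fin n → ℕ) (w : Fin m → ℕ) :
    Prop :=
  MvPolynomial.eval (Sum.elim (fun i => (a i : ℤ)) (fun j => (w j : ℤ))) P = 0

/-- For every value of the parameters there is at most one solution in the auxiliary variables. -/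
def SingleFoldPoly {n m : ℕ} (P : MvPolynomial (Fin n ⊕ Fin m) ℤ) : Prop :=
  ∀ a : Fin n → ℕ, {w : Fin m → ℕ | IsWit P a w}.Subsingleton

end Vale.Agent.P345
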